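import Vale.Agent.P101.DD

namespace Vale.Agent.Results.P101.DimDrop

open Vale.Agent.P101 BoundedContinuousFunction

universe u

/-- If the central sequence algebra of a separable unital C*-algebra has no characters, then every
prime dimension drop algebra maps unitally into it. -/
theorem result (A : Type u) [CStarAlgebra A] [TopologicalSpace.SeparableSpace A]
    (ω : Ultrafilter ℕ) (hω : (ω : Filter ℕ) ≤ Filter.cofinite) :
    (∃ (U : Type u) (_ : CStarAlgebra U) (π : (ℕ →ᵇ A) →⋆ₐ[ℂ] U), IsUltrapower ω π) ∧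
    ∀ (U : Type u) [CStarAlgebra U] (π : (ℕ →ᵇ A) →⋆ₐ[ℂ] U), IsUltrapower ω π →
      IsEmpty (CentralSeqAlg π →⋆ₐ[ℂ] ℂ) →
      ∀ p q : ℕ, 2 ≤ p → 2 ≤ q → Nat.Coprime p q →
        Nonempty (DimDrop p q →⋆ₐ[ℂ] CentralSeqAlg π) :=
  ⟨(exists_ultra ω A).imp fun _ h => h.imp fun _ h => h.imp fun _ h => h.1,
    fun _ _ _ hπ h _ _ hp hq hpq => dd_in_F hω hπ h hp hq hpq⟩

end Vale.Agent.Results.P101.DimDrop
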